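import Vale.Agent.P254.Unc.CertCheck

/-!
# P254: calibration A, slope 0.053, multiplier 0.087
-/

namespace Vale.Agent.P254.Unc.Cert.A

/-- The spline `a`. -/
def a : Spl :=
  ⟨(175940863/268435456),
    [((31/64), (-35/8388608)),
     ((123/64), (-746269/1073741824)),
     ((69/16), (469759/1073741824)),
     ((123/16), (776005/536870912)),
     ((12), (-1155021/1073741824))],
    (12), (30091/8388608)⟩

/-- The spline `r1`. -/
def r1 : Spl :=
  ⟨(0),
    [((31/64), (4626965089/536870912)),
     ((123/64), (-330179901/268435456)),
     ((69/16), (384233291/536870912)),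
     ((123/16), (-677495165/1073741824)),
     ((12), (158076379/536870912))],
    (12), (-2033987607/1073741824)⟩

/-- The spline `r2`. -/
def r2 : Spl :=
  ⟨(0),
    [((31/64), (-23072829893/1073741824)),
     ((123/64), (1266910213/1073741824)),
     ((69/16), (151830571/16777216)),
     ((123/16), (-15706642129/1073741824)),
     ((12), (128376549/16777216))],
    (12), (-54497257253/1073741824)⟩

/-- The calibration data. -/
def data : Data :=
  ⟨(87/1000), (53/1000), (-32645/8388608), (12), a, r1, r2⟩

end Vale.Agent.P254.Unc.Cert.A
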