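import Vale.Agent.P254.Unc.CertCheck

/-!
# P254: calibration B, slope 0.158, multiplier 0.825
-/

namespace Vale.Agent.P254.Unc.Cert.B

/-- The spline `a`. -/
def a : Spl :=
  ⟨(664247187/1073741824),
    [((31/64), (-3710073/1073741824)),
     ((123/64), (17626195/1073741824)),
     ((69/16), (-700211/67108864)),
     ((123/16), (3532159/536870912)),
     ((12), (-1074373/268435456))],
    (12), (30043349/1073741824)⟩

/-- The spline `r1`. -/
def r1 : Spl :=
  ⟨(0),
    [((31/64), (325948569/268435456)),
     ((123/64), (-135314347/1073741824)),
     ((69/16), (145243931/1073741824)),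
     ((123/16), (-2658339/16777216)),
     ((12), (41080771/536870912))],
    (12), (-133545923/268435456)⟩

/-- The spline `r2`. -/
def r2 : Spl :=
  ⟨(0),
    [((31/64), (-1098800623/536870912)),
     ((123/64), (-299122869/1073741824)),
     ((69/16), (355323297/268435456)),
     ((123/16), (-2145231177/1073741824)),
     ((12), (558297981/536870912))],
    (12), (-3703838021/536870912)⟩

/-- The calibration data. -/
def data : Data :=
  ⟨(33/40), (79/500), (-54087/2097152), (12), a, r1, r2⟩

end Vale.Agent.P254.Unc.Cert.B
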