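import Vale.Agent.P254.Unc.Cert.C1
import Vale.Agent.P254.Unc.Cert.C2

/-!
# P254: calibration C is certified
-/

namespace Vale.Agent.P254.Unc.Cert.C

theorem main : data.Main := Data.Covers.main ((part1).trans part2)

theorem tail_ok : data.tailOk = true := by decide +kernel

end Vale.Agent.P254.Unc.Cert.C
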