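import Vale.Agent.P254.Unc.CertCheck

/-!
# P254: calibration C, slope 0.32, multiplier 1.02
-/

namespace Vale.Agent.P254.Unc.Cert.C

/-- The spline `a`. -/
def a : Spl :=
  ⟨(382442453/536870912),
    [((31/64), (13766701/1073741824)),
     ((123/64), (24035063/1073741824)),
     ((69/16), (-33473197/1073741824)),
     ((123/16), (150597/8388608)),
     ((12), (-8312761/1073741824))],
    (12), (51072807/1073741824)⟩

/-- The spline `r1`. -/
def r1 : Spl :=
  ⟨(0),
    [((31/64), (97623847/134217728)),
     ((123/64), (-58583149/536870912)),
     ((69/16), (103816335/1073741824)),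
     ((123/16), (-57074199/1073741824)),
     ((12), (7764279/536870912))],
    (12), (-17683013/268435456)⟩

/-- The spline `r2`. -/
def r2 : Spl :=
  ⟨(0),
    [((31/64), (-2382139291/1073741824)),
     ((123/64), (14714911/268435456)),
     ((69/16), (904477335/1073741824)),
     ((123/16), (-1640195183/1073741824)),
     ((12), (887874689/1073741824))],
    (12), (-5988332581/1073741824)⟩

/-- The calibration data. -/
def data : Data :=
  ⟨(51/50), (8/25), (-2377233/16777216), (12), a, r1, r2⟩

end Vale.Agent.P254.Unc.Cert.C
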