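import Vale.Agent.P254.Unc.PLPot
import Vale.Agent.P254.Unc.Cert.A
import Vale.Agent.P254.Unc.Cert.B
import Vale.Agent.P254.Unc.Cert.C
import Vale.Agent.P254.Unc.Cert.D

/-!
# P254: the potential, below the caps of the four calibrations
-/

namespace Vale.Agent.P254.Unc.Cert.Psi

/-- Pieces, part 0. -/
def pieces0 : List Piece := [
  ⟨(mkRat (8761869994491) 8796093022208), (mkRat (53) 1000), 0, 0, 1, 1⟩,
  ⟨(mkRat (17522313527163) 17592186044416), (mkRat (233) 4000), (mkRat (16195) 1048576), 0, 1, (mkRat (19) 20)⟩,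
  ⟨(mkRat (8760207036841) 8796093022208), (mkRat (127) 2000), (mkRat (21565) 1048576), 0, 1, (mkRat (9) 10)⟩,
  ⟨(mkRat (2189785415139) 2199023255552), (mkRat (11) 160), (mkRat (24191) 1048576), 0, 1, (mkRat (17) 20)⟩,
  ⟨(mkRat (8758008418335) 8796093022208), (mkRat (37) 500), (mkRat (6433) 262144), 0, 1, (mkRat (4) 5)⟩,
  ⟨(mkRat (8756830827641) 8796093022208), (mkRat (317) 4000), (mkRat (26739) 1048576), 0, 1, (mkRat (3) 4)⟩,
  ⟨(mkRat (17511244377223) 17592186044416), (mkRat (169) 2000), (mkRat (6861) 262144), 0, 1, (mkRat (7) 10)⟩,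
  ⟨(mkRat (4377195324341) 4398046511104), (mkRat (359) 4000), (mkRat (6991) 262144), 0, 1, (mkRat (13) 20)⟩,
  ⟨(mkRat (2188285395189) 2199023255552), (mkRat (19) 200), (mkRat (14181) 524288), 0, 1, (mkRat (3) 5)⟩,
  ⟨(mkRat (4375939364125) 4398046511104), (mkRat (401) 4000), (mkRat (28675) 1048576), 0, 1, (mkRat (11) 20)⟩,
  ⟨(mkRat (17501209379071) 17592186044416), (mkRat (211) 2000), (mkRat (28929) 1048576), 0, 1, (mkRat (1) 2)⟩,
  ⟨(mkRat (8749321490461) 8796093022208), (mkRat (443) 4000), (mkRat (29137) 1048576), 0, 1, (mkRat (9) 20)⟩,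
  ⟨(mkRat (8748030584353) 8796093022208), (mkRat (29) 250), (mkRat (229) 8192), 0, 1, (mkRat (2) 5)⟩,
  ⟨(mkRat (17493466408673) 17592186044416), (mkRat (97) 800), (mkRat (29459) 1048576), 0, 1, (mkRat (7) 20)⟩,
  ⟨(mkRat (17490860462431) 17592186044416), (mkRat (253) 2000), (mkRat (14793) 524288), 0, 1, (mkRat (3) 10)⟩,
  ⟨(mkRat (17488244827347) 17592186044416), (mkRat (527) 4000), (mkRat (29) 1024), 0, 1, (mkRat (1) 4)⟩,
  ⟨(mkRat (8742810368273) 8796093022208), (mkRat (137) 1000), (mkRat (931) 32768), 0, 1, (mkRat (1) 5)⟩,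
  ⟨(mkRat (17482989158913) 17592186044416), (mkRat (569) 4000), (mkRat (29877) 1048576), 0, 1, (mkRat (3) 20)⟩,
  ⟨(mkRat (17480350975251) 17592186044416), (mkRat (59) 400), (mkRat (117) 4096), 0, 1, (mkRat (1) 10)⟩,
  ⟨(mkRat (17477706890203) 17592186044416), (mkRat (611) 4000), (mkRat (30019) 1048576), 0, 1, (mkRat (1) 20)⟩]

/-- Pieces, part 1. -/
def pieces1 : List Piece := [
  ⟨(mkRat (4368764358063) 4398046511104), (mkRat (79) 500), (mkRat (235) 8192), 0, 1, 0⟩,
  ⟨(mkRat (8735520942395) 8796093022208), (mkRat (514) 3125), (mkRat (4617) 131072), 1, 2, (mkRat (24) 25)⟩,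
  ⟨(mkRat (17466290979871) 17592186044416), (mkRat (2137) 12500), (mkRat (10925) 262144), 1, 2, (mkRat (23) 25)⟩,
  ⟨(mkRat (4365203652671) 4398046511104), (mkRat (1109) 6250), (mkRat (50373) 1048576), 1, 2, (mkRat (22) 25)⟩,
  ⟨(mkRat (8727311280851) 8796093022208), (mkRat (2299) 12500), (mkRat (14239) 262144), 1, 2, (mkRat (21) 25)⟩,
  ⟨(mkRat (17447724399963) 17592186044416), (mkRat (119) 625), (mkRat (63451) 1048576), 1, 2, (mkRat (4) 5)⟩,
  ⟨(mkRat (1090008098987) 1099511627776), (mkRat (2461) 12500), (mkRat (69859) 1048576), 1, 2, (mkRat (19) 25)⟩,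
  ⟨(mkRat (17431847462795) 17592186044416), (mkRat (1271) 6250), (mkRat (76181) 1048576), 1, 2, (mkRat (18) 25)⟩,
  ⟨(mkRat (8711443530215) 8796093022208), (mkRat (2623) 12500), (mkRat (20605) 262144), 1, 2, (mkRat (17) 25)⟩,
  ⟨(mkRat (17413257508871) 17592186044416), (mkRat (676) 3125), (mkRat (88575) 1048576), 1, 2, (mkRat (16) 25)⟩,
  ⟨(mkRat (4350741930715) 4398046511104), (mkRat (557) 2500), (mkRat (11831) 131072), 1, 2, (mkRat (3) 5)⟩,
  ⟨(mkRat (17392026399705) 17592186044416), (mkRat (1433) 6250), (mkRat (100641) 1048576), 1, 2, (mkRat (14) 25)⟩,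
  ⟨(mkRat (17380442127999) 17592186044416), (mkRat (2947) 12500), (mkRat (106555) 1048576), 1, 2, (mkRat (13) 25)⟩,
  ⟨(mkRat (8684111748167) 8796093022208), (mkRat (757) 3125), (mkRat (56195) 524288), 1, 2, (mkRat (12) 25)⟩,
  ⟨(mkRat (8677689383577) 8796093022208), (mkRat (3109) 12500), (mkRat (118149) 1048576), 1, 2, (mkRat (11) 25)⟩,
  ⟨(mkRat (8670958155809) 8796093022208), (mkRat (319) 1250), (mkRat (123831) 1048576), 1, 2, (mkRat (2) 5)⟩,
  ⟨(mkRat (17327844066021) 17592186044416), (mkRat (3271) 12500), (mkRat (4045) 32768), 1, 2, (mkRat (9) 25)⟩,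
  ⟨(mkRat (17313170184089) 17592186044416), (mkRat (838) 3125), (mkRat (67487) 524288), 1, 2, (mkRat (8) 25)⟩,
  ⟨(mkRat (4324475596171) 4398046511104), (mkRat (3433) 12500), (mkRat (140437) 1048576), 1, 2, (mkRat (7) 25)⟩,
  ⟨(mkRat (2160256061923) 2199023255552), (mkRat (1757) 6250), (mkRat (36457) 262144), 1, 2, (mkRat (6) 25)⟩]

/-- Pieces, part 2. -/
def pieces2 : List Piece := [
  ⟨(mkRat (17265616235051) 17592186044416), (mkRat (719) 2500), (mkRat (37787) 262144), 1, 2, (mkRat (1) 5)⟩,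
  ⟨(mkRat (17248612996397) 17592186044416), (mkRat (919) 3125), (mkRat (9775) 65536), 1, 2, (mkRat (4) 25)⟩,
  ⟨(mkRat (8615523140425) 8796093022208), (mkRat (3757) 12500), (mkRat (161583) 1048576), 1, 2, (mkRat (3) 25)⟩,
  ⟨(mkRat (17212923372407) 17592186044416), (mkRat (1919) 6250), (mkRat (166699) 1048576), 1, 2, (mkRat (2) 25)⟩,
  ⟨(mkRat (17194251337631) 17592186044416), (mkRat (3919) 12500), (mkRat (85875) 524288), 1, 2, (mkRat (1) 25)⟩,
  ⟨(mkRat (17175037460519) 17592186044416), (mkRat (8) 25), (mkRat (88367) 524288), 0, 2, 0⟩,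
  ⟨(mkRat (17158713043123) 17592186044416), (mkRat (3253) 10000), (mkRat (183587) 1048576), 2, 3, (mkRat (49) 50)⟩,
  ⟨(mkRat (17141790288129) 17592186044416), (mkRat (1653) 5000), (mkRat (47579) 262144), 2, 3, (mkRat (24) 25)⟩,
  ⟨(mkRat (8562139977383) 8796093022208), (mkRat (3359) 10000), (mkRat (49231) 262144), 2, 3, (mkRat (47) 50)⟩,
  ⟨(mkRat (17106192624423) 17592186044416), (mkRat (853) 2500), (mkRat (203413) 1048576), 2, 3, (mkRat (23) 25)⟩,
  ⟨(mkRat (8543769261407) 8796093022208), (mkRat (693) 2000), (mkRat (209787) 1048576), 2, 3, (mkRat (9) 10)⟩,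
  ⟨(mkRat (17068327697813) 17592186044416), (mkRat (1759) 5000), (mkRat (13503) 65536), 2, 3, (mkRat (22) 25)⟩,
  ⟨(mkRat (133191953277) 137438953472), (mkRat (3571) 10000), (mkRat (111099) 524288), 2, 3, (mkRat (43) 50)⟩,
  ⟨(mkRat (17028275002103) 17592186044416), (mkRat (453) 1250), (mkRat (228241) 1048576), 2, 3, (mkRat (21) 25)⟩,
  ⟨(mkRat (8503726035597) 8796093022208), (mkRat (3677) 10000), (mkRat (117089) 524288), 2, 3, (mkRat (41) 50)⟩,
  ⟨(mkRat (16986110385411) 17592186044416), (mkRat (373) 1000), (mkRat (60003) 262144), 2, 3, (mkRat (4) 5)⟩,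
  ⟨(mkRat (8482129418339) 8796093022208), (mkRat (3783) 10000), (mkRat (122873) 524288), 2, 3, (mkRat (39) 50)⟩,
  ⟨(mkRat (2117738289615) 2199023255552), (mkRat (959) 2500), (mkRat (62845) 262144), 2, 3, (mkRat (19) 25)⟩,
  ⟨(mkRat (16919061273465) 17592186044416), (mkRat (3889) 10000), (mkRat (256919) 1048576), 2, 3, (mkRat (37) 50)⟩,
  ⟨(mkRat (8447866032361) 8796093022208), (mkRat (1971) 5000), (mkRat (65591) 262144), 2, 3, (mkRat (18) 25)⟩]

/-- Pieces, part 3. -/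
def pieces3 : List Piece := [
  ⟨(mkRat (16871926960181) 17592186044416), (mkRat (799) 2000), (mkRat (66929) 262144), 2, 3, (mkRat (7) 10)⟩,
  ⟨(mkRat (16847653962573) 17592186044416), (mkRat (253) 625), (mkRat (136489) 524288), 2, 3, (mkRat (17) 25)⟩,
  ⟨(mkRat (16822920896793) 17592186044416), (mkRat (4101) 10000), (mkRat (34769) 131072), 2, 3, (mkRat (33) 50)⟩,
  ⟨(mkRat (16797735409895) 17592186044416), (mkRat (2077) 5000), (mkRat (35405) 131072), 2, 3, (mkRat (16) 25)⟩,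
  ⟨(mkRat (1048256566251) 1099511627776), (mkRat (4207) 10000), (mkRat (288243) 1048576), 2, 3, (mkRat (31) 50)⟩,
  ⟨(mkRat (16746037138533) 17592186044416), (mkRat (213) 500), (mkRat (73291) 262144), 2, 3, (mkRat (3) 5)⟩,
  ⟨(mkRat (16719538847905) 17592186044416), (mkRat (4313) 10000), (mkRat (74501) 262144), 2, 3, (mkRat (29) 50)⟩,
  ⟨(mkRat (16692617212753) 17592186044416), (mkRat (2183) 5000), (mkRat (302765) 1048576), 2, 3, (mkRat (14) 25)⟩,
  ⟨(mkRat (16665279168777) 17592186044416), (mkRat (4419) 10000), (mkRat (38431) 131072), 2, 3, (mkRat (27) 50)⟩,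
  ⟨(mkRat (1039845717115) 1099511627776), (mkRat (559) 1250), (mkRat (312055) 1048576), 2, 3, (mkRat (13) 25)⟩,
  ⟨(mkRat (16609380707967) 17592186044416), (mkRat (181) 400), (mkRat (79147) 262144), 2, 3, (mkRat (1) 2)⟩,
  ⟨(mkRat (16580833273343) 17592186044416), (mkRat (2289) 5000), (mkRat (321049) 1048576), 2, 3, (mkRat (12) 25)⟩,
  ⟨(mkRat (16551895572153) 17592186044416), (mkRat (4631) 10000), (mkRat (162719) 524288), 2, 3, (mkRat (23) 50)⟩,
  ⟨(mkRat (16522573828745) 17592186044416), (mkRat (1171) 2500), (mkRat (329757) 1048576), 2, 3, (mkRat (11) 25)⟩,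
  ⟨(mkRat (4123218500177) 4398046511104), (mkRat (4737) 10000), (mkRat (334009) 1048576), 2, 3, (mkRat (21) 50)⟩,
  ⟨(mkRat (16462802134551) 17592186044416), (mkRat (479) 1000), (mkRat (338193) 1048576), 2, 3, (mkRat (2) 5)⟩,
  ⟨(mkRat (128377844523) 137438953472), (mkRat (4843) 10000), (mkRat (342311) 1048576), 2, 3, (mkRat (19) 50)⟩,
  ⟨(mkRat (16401565495799) 17592186044416), (mkRat (306) 625), (mkRat (173183) 524288), 2, 3, (mkRat (9) 25)⟩,
  ⟨(mkRat (4092603003987) 4398046511104), (mkRat (4949) 10000), (mkRat (350357) 1048576), 2, 3, (mkRat (17) 50)⟩,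
  ⟨(mkRat (16338909083465) 17592186044416), (mkRat (2501) 5000), (mkRat (354287) 1048576), 2, 3, (mkRat (8) 25)⟩]

/-- Pieces, part 4. -/
def pieces4 : List Piece := [
  ⟨(mkRat (2038382765303) 2199023255552), (mkRat (1011) 2000), (mkRat (89539) 262144), 2, 3, (mkRat (3) 10)⟩,
  ⟨(mkRat (4068719094765) 4398046511104), (mkRat (1277) 2500), (mkRat (180983) 524288), 2, 3, (mkRat (7) 25)⟩,
  ⟨(mkRat (8121178505345) 8796093022208), (mkRat (5161) 10000), (mkRat (182859) 524288), 2, 3, (mkRat (13) 50)⟩,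
  ⟨(mkRat (8104754542855) 8796093022208), (mkRat (2607) 5000), (mkRat (369413) 1048576), 2, 3, (mkRat (6) 25)⟩,
  ⟨(mkRat (8088168791799) 8796093022208), (mkRat (5267) 10000), (mkRat (93263) 262144), 2, 3, (mkRat (11) 50)⟩,
  ⟨(mkRat (16142847394913) 17592186044416), (mkRat (133) 250), (mkRat (94159) 262144), 2, 3, (mkRat (1) 5)⟩,
  ⟨(mkRat (16109043232375) 17592186044416), (mkRat (5373) 10000), (mkRat (380167) 1048576), 2, 3, (mkRat (9) 50)⟩,
  ⟨(mkRat (8037464948811) 8796093022208), (mkRat (2713) 5000), (mkRat (95911) 262144), 2, 3, (mkRat (4) 25)⟩,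
  ⟨(mkRat (8020255918309) 8796093022208), (mkRat (5479) 10000), (mkRat (387071) 1048576), 2, 3, (mkRat (7) 50)⟩,
  ⟨(mkRat (8002896836581) 8796093022208), (mkRat (1383) 2500), (mkRat (195223) 524288), 2, 3, (mkRat (3) 25)⟩,
  ⟨(mkRat (7985389882149) 8796093022208), (mkRat (1117) 2000), (mkRat (98443) 262144), 2, 3, (mkRat (1) 10)⟩,
  ⟨(mkRat (7967737189075) 8796093022208), (mkRat (2819) 5000), (mkRat (198525) 524288), 2, 3, (mkRat (2) 25)⟩,
  ⟨(mkRat (993742616985) 1099511627776), (mkRat (5691) 10000), (mkRat (400279) 1048576), 2, 3, (mkRat (3) 50)⟩,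
  ⟨(mkRat (15864006424333) 17592186044416), (mkRat (359) 625), (mkRat (403461) 1048576), 2, 3, (mkRat (1) 25)⟩,
  ⟨(mkRat (15827852037235) 17592186044416), (mkRat (5797) 10000), (mkRat (203299) 524288), 2, 3, (mkRat (1) 50)⟩,
  ⟨(mkRat (986963925047) 1099511627776), (mkRat (117) 200), (mkRat (409689) 1048576), 0, 3, 0⟩]

/-- The pieces. -/
def pieces : List Piece := [pieces0, pieces1, pieces2, pieces3, pieces4].flatten

/-- The potential. -/
noncomputable def pot : ℝ → ℝ := plPot pieces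

/-- Its slopes. -/
noncomputable def slope : ℝ → ℝ := plSlope pieces

theorem pieces_ok : plOk pieces [A.data, B.data, C.data, D.data] = true := by decide +kernel

/-- The step inequality for the potential. -/
theorem pot_and_stepIneq : Pot pot slope ∧ StepIneq pot slope := by
  refine pot_and_stepIneq_of_plOk pieces_ok fun C hC => ?_
  simp only [List.mem_cons, List.not_mem_nil, or_false] at hC
  rcases hC with rfl | rfl | rfl | rfl
  exacts [A.main, B.main, C.main, D.main]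

end Vale.Agent.P254.Unc.Cert.Psi
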