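import Vale.Agent.P254.Unc.Cert.FamData
import Vale.Agent.P254.Unc.Cert.Psi

/-!
# P254: the potential has conversion margin 1/200
-/

open Vale.Agent.P254.Unc.Fam

namespace Vale.Agent.P254.Unc.Cert.Psi

/-- The lines of the family certificate are among the pieces. -/
theorem lines_ok : ((FamData.cells.map fun C => (C.c, C.s)) ++ [FamData.farLine]).all
    (fun l => pieces.any fun p => decide (p.c = l.1) && decide (p.s = l.2)) = true := by
  decide +kernel

theorem line_le {l : ℚ × ℚ} (hl : l ∈ (FamData.cells.map fun C => (C.c, C.s)) ++ [FamData.farLine])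
    (u : ℝ) : (l.1 : ℝ) + (l.2 : ℝ) * u ≤ pot u := by
  have h := List.all_eq_true.1 lines_ok l hl
  simp only [List.any_eq_true, Bool.and_eq_true, decide_eq_true_eq] at h
  obtain ⟨p, hp, hc, hs⟩ := h
  have := cs_le_plPot hp u
  rwa [hc, hs] at this

/-- The conversion to second moments with margin `1/200`. -/
theorem convIneq : ConvIneq pot (1 / 200) := by
  have h := FamData.famIneq_of_lines (ψ := pot)
    (fun C hC u _ => line_le (l := (C.c, C.s))
      (List.mem_append_left _ (List.mem_map.2 ⟨C, hC, rfl⟩)) u)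
    (fun u _ => line_le (List.mem_append_right _ (List.mem_singleton.2 rfl)) u)
  have hm : ((FamData.margin : ℚ) : ℝ) = 1 / 200 := by
    norm_num [FamData.margin, Rat.mkRat_eq_div]
  rw [hm] at h
  exact convIneq_of_fam pot_and_stepIneq.1 h

/-- A potential with the step inequality and conversion margin `1/200`. -/
theorem exists_potential :
    ∃ ψ s : ℝ → ℝ, Pot ψ s ∧ StepIneq ψ s ∧ ConvIneq ψ (1 / 200) :=
  ⟨pot, slope, pot_and_stepIneq.1, pot_and_stepIneq.2, convIneq⟩

end Vale.Agent.P254.Unc.Cert.Psi
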