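import Vale.Agent.P254.Unc.CertCheck

/-!
# P254: calibration D, slope 0.585, multiplier 1.475
-/

namespace Vale.Agent.P254.Unc.Cert.D

/-- The spline `a`. -/
def a : Spl :=
  ⟨(977855315/1073741824),
    [((31/64), (-30657723/1073741824)),
     ((123/64), (4999913/1073741824)),
     ((69/16), (-18613013/536870912)),
     ((123/16), (6329407/268435456)),
     ((12), (-11353703/1073741824))],
    (12), (70089013/1073741824)⟩

/-- The spline `r1`. -/
def r1 : Spl :=
  ⟨(0),
    [((31/64), (1286762823/1073741824)),
     ((123/64), (-17258079/536870912)),
     ((69/16), (104372119/1073741824)),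
     ((123/16), (-63652041/536870912)),
     ((12), (28595615/536870912))],
    (12), (-22344697/67108864)⟩

/-- The spline `r2`. -/
def r2 : Spl :=
  ⟨(0),
    [((31/64), (-750940379/268435456)),
     ((123/64), (33984201/268435456)),
     ((69/16), (-55868717/134217728)),
     ((123/16), (451222681/1073741824)),
     ((12), (-195437317/1073741824))],
    (12), (579997983/536870912)⟩

/-- The calibration data. -/
def data : Data :=
  ⟨(59/40), (117/200), (-943913/2097152), (12), a, r1, r2⟩

end Vale.Agent.P254.Unc.Cert.D
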